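import Mathlib.Analysis.Complex.Basic
import Mathlib.Analysis.Convex.Topology
import Mathlib.Analysis.Normed.Affine.Convex
import Mathlib.Topology.MetricSpace.Thickening
import Mathlib.Topology.MetricSpace.ProperSpace
import Mathlib.Topology.Connected.Clopen

/-!
# P155, geometry: attaching the nearby points of a set by segments, chains
-/

namespace Vale.Agent.P155.Geo

open Set Metric Topology Filter

/-- `K` together with the segments of length at most `η` from `Z` to `K`. -/
def Att (K Z : Set ℂ) (η : ℝ) : Set ℂ :=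
  K ∪ {p | ∃ x ∈ Z, ∃ y ∈ K, dist x y ≤ η ∧ p ∈ segment ℝ x y}

variable {K K' Z Z' E : Set ℂ} {η : ℝ}

theorem sub_att : K ⊆ Att K Z η := subset_union_left

theorem att_mono (h : K ⊆ K') (h' : Z ⊆ Z') {η' : ℝ} (hη : η ≤ η') : Att K Z η ⊆ Att K' Z' η' := by
  rintro p (hp | ⟨x, hx, y, hy, h1, h2⟩)
  · exact Or.inl (h hp)
  · exact Or.inr ⟨x, h' hx, y, h hy, h1.trans hη, h2⟩

theorem mem_att {x y : ℂ} (hx : x ∈ Z) (hy : y ∈ K) (h : dist x y ≤ η) : x ∈ Att K Z η :=
  Or.inr ⟨x, hx, y, hy, h, left_mem_segment ℝ x y⟩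

theorem seg_dist {x y p : ℂ} (hp : p ∈ segment ℝ x y) :
    dist p x ≤ dist x y ∧ dist p y ≤ dist x y := by
  have h := dist_add_dist_of_mem_segment hp
  have h1 := dist_nonneg (x := x) (y := p)
  have h2 := dist_nonneg (x := p) (y := y)
  rw [dist_comm p x]
  constructor <;> linarith

/-- a point of `Att K Z η` is in `K`, or close to `K` and to `Z` -/
theorem att_near {p : ℂ} (hp : p ∈ Att K Z η) :
    p ∈ K ∨ (∃ x ∈ Z, dist p x ≤ η) ∧ ∃ y ∈ K, dist p y ≤ η := by
  rcases hp with hp | ⟨x, hx, y, hy, h1, h2⟩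
  · exact Or.inl hp
  · exact Or.inr ⟨⟨x, hx, (seg_dist h2).1.trans h1⟩, y, hy, (seg_dist h2).2.trans h1⟩

theorem att_sub_left : Att K Z η ⊆ cthickening η K := by
  intro p hp
  rcases att_near hp with h | ⟨-, y, hy, h⟩
  · exact self_subset_cthickening K h
  · exact mem_cthickening_of_dist_le p y η K hy h

theorem att_sub_right : Att K Z η ⊆ K ∪ cthickening η Z := by
  intro p hp
  rcases att_near hp with h | ⟨⟨x, hx, h⟩, -⟩
  · exact Or.inl h
  · exact Or.inr (mem_cthickening_of_dist_le p x η Z hx h)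

/-- all the points of `Z` close to `K` are attached -/
theorem near_sub_att (hK : IsClosed K) (hne : K.Nonempty) {x : ℂ} (hx : x ∈ Z)
    (h : infDist x K ≤ η) : x ∈ Att K Z η := by
  obtain ⟨y, hy, e⟩ := hK.exists_infDist_eq_dist hne x
  exact mem_att hx hy (e ▸ h)

theorem att_preconn (hK : IsPreconnected K) : IsPreconnected (Att K Z η) := by
  refine isPreconnected_of_forall_pair fun p hp q hq => ?_
  have key : ∀ p ∈ Att K Z η, ∃ t, t ⊆ Att K Z η ∧ p ∈ t ∧ K ⊆ t ∧ IsPreconnected t := by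
    rintro p (hp | ⟨x, hx, y, hy, h1, h2⟩)
    · exact ⟨K, sub_att, hp, subset_rfl, hK⟩
    · refine ⟨K ∪ segment ℝ x y, union_subset sub_att fun u hu => Or.inr ⟨x, hx, y, hy, h1, hu⟩,
        Or.inr h2, subset_union_left, ?_⟩
      exact hK.union y hy (right_mem_segment ℝ x y) (convex_segment x y).isPreconnected
  have hne : K.Nonempty := by
    rcases hp with hp | ⟨x, hx, y, hy, -⟩
    exacts [⟨p, hp⟩, ⟨y, hy⟩]
  obtain ⟨y, hy⟩ := hne
  obtain ⟨t, h1, h2, h3, h4⟩ := key p hp
  obtain ⟨t', h1', h2', h3', h4'⟩ := key q hq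
  exact ⟨t ∪ t', union_subset h1 h1', Or.inl h2, Or.inr h2', h4.union y (h3 hy) (h3' hy) h4'⟩

theorem att_conn (hK : IsConnected K) : IsConnected (Att K Z η) :=
  ⟨hK.1.mono sub_att, att_preconn hK.2⟩

theorem att_closed (hK : IsClosed K) (hZ : IsCompact Z) : IsClosed (Att K Z η) := by
  have hC : IsCompact {q : ℂ × ℂ × ℝ | q.1 ∈ Z ∧ q.2.1 ∈ K ∧ dist q.1 q.2.1 ≤ η ∧
      q.2.2 ∈ Icc (0 : ℝ) 1} := by
    refine (hZ.prod ((hZ.cthickening (r := η)).prod
      (isCompact_Icc (a := (0 : ℝ)) (b := 1)))).of_isClosed_subset ?_ ?_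
    · exact (hZ.isClosed.preimage continuous_fst).inter
        ((hK.preimage (continuous_fst.comp continuous_snd)).inter
        ((isClosed_le (continuous_fst.dist (continuous_fst.comp continuous_snd))
          continuous_const).inter (isClosed_Icc.preimage (continuous_snd.comp continuous_snd))))
    · rintro q ⟨h1, -, h3, h4⟩
      exact ⟨h1, mem_cthickening_of_dist_le _ _ η Z h1 (by rwa [dist_comm]), h4⟩
  have h2 := hC.image (f := fun q : ℂ × ℂ × ℝ => (1 - q.2.2) • q.1 + q.2.2 • q.2.1) (by fun_prop)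
  refine hK.union ?_
  convert h2.isClosed using 1
  ext p
  simp only [segment_eq_image, mem_image, mem_ofPred_eq]
  constructor
  · rintro ⟨x, hx, y, hy, h1, t, ht, rfl⟩
    exact ⟨(x, y, t), ⟨hx, hy, h1, ht⟩, rfl⟩
  · rintro ⟨q, ⟨h1, h2, h3, h4⟩, rfl⟩
    exact ⟨q.1, h1, q.2.1, h2, h3, q.2.2, h4, rfl⟩

/-- The chain: `K`, `Att K E η`, `Att (Att K E η) E η`, … -/
def chain (K E : Set ℂ) (η : ℝ) : ℕ → Set ℂ
  | 0 => K
  | j + 1 => Att (chain K E η j) E η

theorem chain_mono : Monotone (chain K E η) := monotone_nat_of_le_succ fun _ => sub_att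

theorem sub_chain (j : ℕ) : K ⊆ chain K E η j := chain_mono (Nat.zero_le j)

theorem chain_closed (hK : IsClosed K) (hE : IsCompact E) : ∀ j, IsClosed (chain K E η j)
  | 0 => hK
  | j + 1 => att_closed (chain_closed hK hE j) hE

theorem chain_conn (hK : IsConnected K) : ∀ j, IsConnected (chain K E η j)
  | 0 => hK
  | j + 1 => att_conn (chain_conn hK j)

theorem chain_sub : ∀ j, chain K E η j ⊆ K ∪ cthickening η E
  | 0 => subset_union_left
  | j + 1 => att_sub_right.trans (union_subset (chain_sub j) subset_union_right)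

theorem chain_succ_sub (j : ℕ) : chain K E η (j + 1) ⊆ cthickening η (chain K E η j) :=
  att_sub_left

/-- finitely many steps cover `E` -/
theorem chain_covers (hne : K.Nonempty) (hE : IsCompact E) (hc : IsPreconnected (K ∪ E))
    (hη : 0 < η) : ∃ N, E ⊆ chain K E η N := by
  have h2 : 0 < η / 2 := half_pos hη
  have hstep : ∀ j, ∀ x ∈ K ∪ E, ∀ y ∈ chain K E η j, dist x y ≤ η →
      x ∈ chain K E η (j + 1) := by
    rintro j x (hx | hx) y hy h
    · exact sub_chain _ hx
    · exact mem_att hx hy h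
  have hcov : K ∪ E ⊆ ⋃ j, thickening (η / 2) (chain K E η j) := by
    refine hc.subset_of_closure_inter_subset (isOpen_iUnion fun _ => isOpen_thickening) ?_ ?_
    · obtain ⟨y, hy⟩ := hne
      exact ⟨y, Or.inl hy, mem_iUnion.2 ⟨0, self_subset_thickening h2 _ hy⟩⟩
    · rintro x ⟨h3, h4⟩
      obtain ⟨x', h5, h6⟩ := Metric.mem_closure_iff.1 h3 _ h2
      obtain ⟨j, hj⟩ := mem_iUnion.1 h5
      obtain ⟨y, hy, h7⟩ := mem_thickening_iff.1 hj
      refine mem_iUnion.2 ⟨j + 1, self_subset_thickening h2 _ (hstep j x h4 y hy ?_)⟩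
      linarith [dist_triangle x x' y]
  obtain ⟨N, hN⟩ := hE.elim_directed_cover (fun j => thickening (η / 2) (chain K E η j))
    (fun _ => isOpen_thickening) (subset_union_right.trans hcov)
    (Monotone.directed_le fun i j h => thickening_subset_of_subset _ (chain_mono h))
  refine ⟨N + 1, fun x hx => ?_⟩
  obtain ⟨y, hy, h3⟩ := mem_thickening_iff.1 (hN hx)
  exact hstep N x (Or.inr hx) y hy (by linarith)

end Vale.Agent.P155.Geo
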