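import Mathlib.Analysis.Complex.BorelCaratheodory
import Mathlib.Analysis.Complex.HasPrimitives
import Mathlib.Analysis.Calculus.MeanValue
import Mathlib.Analysis.SpecialFunctions.ExpDeriv
import Mathlib.Analysis.SpecialFunctions.Log.Basic

/-!
# P155, geometry: a Harnack bound for an omitted value
-/

namespace Vale.Agent.P155.Geo

open Set Metric

/-- A holomorphic function without zeros on the disc has a holomorphic logarithm. -/
theorem exists_log {f : ℂ → ℂ} (hf : DifferentiableOn ℂ f (ball 0 1))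
    (h0 : ∀ w ∈ ball (0 : ℂ) 1, f w ≠ 0) :
    ∃ L : ℂ → ℂ, DifferentiableOn ℂ L (ball 0 1) ∧ L 0 = 0 ∧
      ∀ w ∈ ball (0 : ℂ) 1, f w = f 0 * Complex.exp (L w) := by
  have hd : DifferentiableOn ℂ (fun w => deriv f w / f w) (ball 0 1) :=
    (hf.deriv isOpen_ball).div hf h0
  obtain ⟨g, hg⟩ := hd.isExactOn_ball
  have hm : (0 : ℂ) ∈ ball (0 : ℂ) 1 := mem_ball_self one_pos
  refine ⟨fun w => g w - g 0, fun w hw =>
    ((hg w hw).differentiableAt.sub_const _).differentiableWithinAt, sub_self _, fun w hw => ?_⟩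
  have h1 : ∀ x ∈ ball (0 : ℂ) 1,
      HasDerivAt (fun x => f x * Complex.exp (-(g x - g 0))) 0 x := by
    intro x hx
    have h2 := ((hf x hx).differentiableAt (isOpen_ball.mem_nhds hx)).hasDerivAt
    have h3 := (((hg x hx).sub_const (g 0)).neg).cexp
    have h4 := h2.mul h3
    refine h4.congr_deriv ?_
    have := h0 x hx
    simp only [Pi.neg_apply]
    field_simp
    ring
  have h5 := IsOpen.is_const_of_deriv_eq_zero isOpen_ball (convex_ball (0 : ℂ) 1).isPreconnected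
    (f := fun x => f x * Complex.exp (-(g x - g 0)))
    (fun x hx => (h1 x hx).differentiableAt.differentiableWithinAt)
    (fun x hx => (h1 x hx).deriv) hw hm
  simp only [sub_self, neg_zero, Complex.exp_zero, mul_one] at h5
  rw [← h5, mul_assoc, ← Complex.exp_add, neg_add_cancel, Complex.exp_zero, mul_one]

/-- The lower bound: `r (r / D) ^ (2 ρ / (1 - ρ))`. -/
noncomputable def low (D r ρ : ℝ) : ℝ := r * Real.exp (-(2 * Real.log (D / r) * ρ / (1 - ρ)))

theorem low_pos {D r ρ : ℝ} (hr : 0 < r) : 0 < low D r ρ := mul_pos hr (Real.exp_pos _)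

/-- Harnack: a bounded holomorphic function without zeros is not small on a smaller disc. -/
theorem low_le {f : ℂ → ℂ} (hf : DifferentiableOn ℂ f (ball 0 1))
    (h0 : ∀ w ∈ ball (0 : ℂ) 1, f w ≠ 0) {D r ρ : ℝ} (hr : 0 < r) (hD : r < D)
    (hb : ∀ w ∈ ball (0 : ℂ) 1, ‖f w‖ ≤ D) (h1 : r ≤ ‖f 0‖) (hρ : ρ < 1) {w : ℂ}
    (hw : ‖w‖ ≤ ρ) : low D r ρ ≤ ‖f w‖ := by
  obtain ⟨L, hL, hL0, hfL⟩ := exists_log hf h0
  have hM : 0 < Real.log (D / r) := Real.log_pos ((one_lt_div hr).2 hD)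
  have hw1 : w ∈ ball (0 : ℂ) 1 := mem_ball_zero_iff.2 (hw.trans_lt hρ)
  have hmap : MapsTo L (ball 0 1) {z | z.re ≤ Real.log (D / r)} := by
    intro x hx
    have h2 := hb x hx
    rw [hfL x hx, norm_mul, Complex.norm_exp] at h2
    show (L x).re ≤ _
    rw [Real.le_log_iff_exp_le (div_pos (hr.trans hD) hr), le_div_iff₀ hr]
    nlinarith [Real.exp_pos (L x).re]
  have h3 := Complex.borelCaratheodory_zero hM hL hmap one_pos hw1 hL0
  have h4 : 2 * Real.log (D / r) * ‖w‖ / (1 - ‖w‖) ≤ 2 * Real.log (D / r) * ρ / (1 - ρ) := by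
    have h6 := norm_nonneg w
    have h7 : 0 ≤ ρ := h6.trans hw
    have h8 : 0 < 1 - ρ := sub_pos.2 hρ
    gcongr
  have h5 : -(2 * Real.log (D / r) * ρ / (1 - ρ)) ≤ (L w).re := by
    have := Complex.abs_re_le_norm (L w)
    have := neg_abs_le (L w).re
    linarith
  rw [hfL w hw1, norm_mul, Complex.norm_exp, low]
  gcongr

end Vale.Agent.P155.Geo
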