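import Vale.Agent.P155H.Join
import Vale.Agent.P155H.Harn

/-!
# P155, geometry: points near the boundary under a Riemann map
-/

namespace Vale.Agent.P155.Geo

open Set Metric Topology Filter TopologicalSpace MeasureTheory Vale.Agent.P155
  Vale.Agent.P155.Q1 Vale.Agent.P155.Uq

variable {W : Set ℂ} {a b : ℂ → ℂ} {z₀ z : ℂ} {r D ρ : ℝ}

/-- Schwarz -/
theorem norm_le_half (h : CI.Conf W (ball 0 1) a b) (h0 : a z₀ = 0) (hr : 0 < r)
    (hB : ball z₀ r ⊆ W) (hz : z ∈ closedBall z₀ (r / 2)) : ‖a z‖ ≤ 1 / 2 := by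
  have hz' : z ∈ ball z₀ r := closedBall_subset_ball (half_lt_self hr) hz
  have h1 := Complex.dist_le_div_mul_dist_of_mapsTo_ball (f := a) (c := z₀) (R₂ := 1)
    (h.df.mono hB) (fun w hw => by
      rw [h0]
      exact ball_subset_closedBall (h.mf (hB hw))) hz'
  rw [h0, dist_zero_right] at h1
  refine h1.trans ?_
  rw [one_div, inv_mul_le_iff₀ hr]
  linarith [mem_closedBall.1 hz]

/-- Harnack: a point whose image is not near the circle is not near the boundary. -/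
theorem far_of_norm_le (h : CI.Conf W (ball 0 1) a b) (h0 : a z₀ = 0) (hr : 0 < r)
    (hB : ball z₀ r ⊆ W) (hD : ∀ x ∈ W, ∀ y ∈ W, dist x y ≤ D) (hρ : ρ < 1) (hz : z ∈ W)
    (hzρ : ‖a z‖ ≤ ρ) : z ∉ thickening (min 1 (low (D + 1 + r) r ρ)) Wᶜ := by
  intro hc
  obtain ⟨q, hq, h1⟩ := mem_thickening_iff.1 hc
  have hz₀ : z₀ ∈ W := hB (mem_ball_self hr)
  have hD0 : 0 ≤ D := by simpa using hD z hz z hz
  have h2 := low_le (f := fun w => b w - q) (h.dg.sub_const q)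
    (fun w hw e => hq (sub_eq_zero.1 e ▸ h.mg hw)) (D := D + 1 + r) hr (by linarith)
    (fun w hw => by
      rw [← dist_eq_norm]
      have := dist_triangle (b w) z q
      have := hD _ (h.mg hw) z hz
      have := h1.trans_le (min_le_left _ _)
      linarith)
    (by
      rw [← h0, h.gf z₀ hz₀, ← dist_eq_norm, dist_comm]
      by_contra h3
      exact hq (hB (not_le.1 h3))) hρ hzρ
  rw [h.gf z hz, ← dist_eq_norm] at h2
  exact (h1.trans_le (min_le_right _ _)).not_ge h2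

theorem mem_thick_disc {w : ℂ} (hρ : 0 ≤ ρ) (h1 : ρ < ‖w‖) (h2 : ‖w‖ < 1) :
    w ∈ thickening (1 - ρ) (ball (0 : ℂ) 1)ᶜ := by
  have h0 : 0 < ‖w‖ := hρ.trans_lt h1
  refine mem_thickening_iff.2 ⟨(‖w‖⁻¹ : ℝ) • w, ?_, ?_⟩
  · rw [mem_compl_iff, mem_ball_zero_iff, norm_smul, norm_inv, norm_norm,
      inv_mul_cancel₀ h0.ne']
    exact lt_irrefl _
  · have e : w - (‖w‖⁻¹ : ℝ) • w = (1 - ‖w‖⁻¹ : ℝ) • w := by rw [sub_smul, one_smul]
    have h3 : 1 ≤ ‖w‖⁻¹ := (one_le_inv₀ h0).2 h2.le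
    rw [dist_eq_norm, e, norm_smul, Real.norm_eq_abs, abs_of_nonpos (by linarith), neg_sub,
      sub_mul, inv_mul_cancel₀ h0.ne', one_mul]
    linarith

/-- the event in `W`, seen in the disc -/
theorem jn_conf (h : CI.Conf W (ball 0 1) a b) (h0 : a z₀ = 0) (hr : 0 < r)
    (hB : ball z₀ r ⊆ W) (hD : ∀ x ∈ W, ∀ y ∈ W, dist x y ≤ D) (hρ : ρ < 1) (hρ' : 3 / 4 ≤ ρ)
    {K K' : NonemptyCompacts ℂ} (hK : (K' : Set ℂ) = CI.img W a K)
    (hJ : K' ∈ Jn W (closedBall z₀ (r / 2)) (thickening (min 1 (low (D + 1 + r) r ρ)) Wᶜ)) :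
    K ∈ Big (ball 0 1) (1 / 4) (thickening (1 - ρ) (ball (0 : ℂ) 1)ᶜ) := by
  obtain ⟨U, hU, ⟨x, hx, hx'⟩, y, hy, hy'⟩ := hJ
  rw [hK] at hU
  have hU' := CI.Holes.isHole_image h ((CI.Holes.rel_img h.symm K).symm h.symm) hU
  have hyW := CI.Holes.hole_sub hU hy
  have h1 := norm_le_half h h0 hr hB hx'
  have h2 : ρ < ‖a y‖ := not_le.1 fun h3 => far_of_norm_le h h0 hr hB hD hρ hyW h3 hy'
  refine ⟨a '' U, hU', ?_, a y, ⟨y, hy, rfl⟩,
    mem_thick_disc (by linarith) h2 (mem_ball_zero_iff.1 (h.mf hyW))⟩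
  refine lt_of_lt_of_le ?_ (dist_le_diam_of_mem (isBounded_ball.subset (CI.Holes.hole_sub hU'))
    ⟨y, hy, rfl⟩ ⟨x, hx, rfl⟩)
  rw [dist_eq_norm]
  linarith [norm_sub_norm_le (a y) (a x)]

end Vale.Agent.P155.Geo
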