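import Vale.Agent.P155H.Join

/-!
# P155, geometry: splitting a seed into its boundary part and finitely many discs
-/

namespace Vale.Agent.P155.Geo

open Set Metric Topology Filter TopologicalSpace MeasureTheory Vale.Agent.P155
  Vale.Agent.P155.Q1 Vale.Agent.P155.Uq

variable {V O E K W U S T : Set ℂ} {A A' : NonemptyCompacts ℂ} {d r η : ℝ}

/-- a hole in `U` which meets a component `W` of `U` is a hole in `W` -/
theorem hole_comp {B B' H : Set ℂ} {w : ℂ} (hW : W = connectedComponentIn U w)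
    (hB : ∀ z ∈ W, z ∈ B' ↔ z ∈ B) (hH : IsHole U B H) (hne : (H ∩ W).Nonempty) :
    IsHole W B' H := by
  obtain ⟨x, hx, hxW⟩ := hne
  have hWU : W ⊆ U := hW ▸ connectedComponentIn_subset _ _
  have hW' : W = connectedComponentIn U x := hW.trans (connectedComponentIn_eq (hW ▸ hxW))
  have hHW : H ⊆ W := hW' ▸ (hole_conn hH).2.subset_connectedComponentIn hx
    ((hole_sub hH).trans sdiff_subset)
  have h1 : H ⊆ W \ B' := fun z hz => ⟨hHW hz, fun h => (hole_sub hH hz).2 ((hB z (hHW hz)).1 h)⟩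
  refine ⟨x, h1 hx, ((hole_conn hH).2.subset_connectedComponentIn hx h1).antisymm ?_⟩
  refine sub_hole hH isPreconnected_connectedComponentIn (fun z hz => ?_)
    (mem_connectedComponentIn (h1 hx)) hx
  have h2 := connectedComponentIn_subset _ _ hz
  exact ⟨hWU h2.1, fun h => h2.2 ((hB z h2.1).2 h)⟩

/-- a hole in a component `W` of `U` is a hole in `U` -/
theorem hole_of_comp {B B' H : Set ℂ} {w : ℂ} (hW : W = connectedComponentIn U w)
    (hB : ∀ z ∈ W, z ∈ B' ↔ z ∈ B) (hH : IsHole W B' H) : IsHole U B H := by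
  obtain ⟨x, hx⟩ := (hole_conn hH).1
  have hWU : W ⊆ U := hW ▸ connectedComponentIn_subset _ _
  have h1 := hole_sub hH hx
  have h2 : x ∈ U \ B := ⟨hWU h1.1, fun h => h1.2 ((hB x h1.1).2 h)⟩
  have h3 : IsHole U B (connectedComponentIn (U \ B) x) := ⟨x, h2, rfl⟩
  rw [hole_meet hH (hole_comp hW hB h3 ⟨x, mem_connectedComponentIn h2, h1.1⟩) hx
    (mem_connectedComponentIn h2)]
  exact h3

theorem jn_comp {w : ℂ} (hW : W = connectedComponentIn U w) (hA : ∀ z ∈ W, z ∈ A' ↔ z ∈ A)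
    (hS : S ⊆ W) (h : A ∈ Jn U S T) : A' ∈ Jn W S T := by
  obtain ⟨H, hH, h1, h2⟩ := h
  exact ⟨H, hole_comp hW hA hH (h1.mono (inter_subset_inter_right _ hS)), h1, h2⟩

/-- the boundary part of a seed, in a fixed domain -/
theorem jc_bdry (hb : Bornology.IsBounded V) (hr : 0 < r) (hrd : r ≤ d / 2)
    (hOT : ∀ x ∈ O, ∀ y ∈ T, d < dist x y) (hin : ∀ U, IsHole V A U → closure U ⊆ V)
    (h : A ∈ Jc V (Att Vᶜ O r) T) : A ∈ Big V (d / 2) (thickening (2 * r) Vᶜ) := by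
  obtain ⟨U, hU, ⟨x, hx, hx'⟩, y, hy, hy'⟩ := h
  rcases att_near hx' with h1 | ⟨⟨p, hp, h1⟩, q, hq, h2⟩
  · exact absurd (hin U hU hx) h1
  refine ⟨U, hU, ?_, (closure_inter_open_nonempty_iff isOpen_thickening).1
    ⟨x, hx, mem_thickening_iff.2 ⟨q, hq, by linarith⟩⟩⟩
  rw [← diam_closure]
  refine lt_of_lt_of_le ?_ (dist_le_diam_of_mem
    (hb.subset (CI.Holes.hole_sub hU)).closure hx hy)
  have := hOT p hp y hy'
  have := dist_triangle p x y
  rw [dist_comm p x] at this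
  linarith

/-- the splitting; the discs do not depend on `K` and `η` -/
theorem jc_split (ho : IsOpen V) (hV : V ≠ univ) (hO : IsCompact O) (hr : 0 < r)
    (hrd : r ≤ d / 2) (hOE : ∀ x ∈ O, ∀ y ∈ E, d ≤ dist x y) :
    ∃ Z : Finset ℂ, ∀ (K : Set ℂ) (η : ℝ), 0 < η → η < d / 2 → Vᶜ ⊆ K →
      K ⊆ Vᶜ ∪ cthickening η E → (∀ z ∈ Z, ball z r ⊆ Kᶜ) ∧
      ∀ A : NonemptyCompacts ℂ, (∀ U, IsHole Kᶜ A U → closure U ⊆ Kᶜ) →
        A ∈ Jc Kᶜ (Att K E η) O → A ∈ Jc Kᶜ (Att Vᶜ O r) (cthickening η E) ∨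
          ∃ z ∈ Z, A ∈ Jn Kᶜ (closedBall z (r / 2)) (thickening (2 * η) K) := by
  have hC : IsCompact (O ∩ {x | r ≤ infDist x Vᶜ}) :=
    hO.inter_right (isClosed_le continuous_const (continuous_infDist_pt _))
  obtain ⟨Z, hZ, hfin, hcov⟩ := finite_cover_balls_of_compact hC (half_pos hr)
  refine ⟨hfin.toFinset, fun K η hη hηd hVK hK => ⟨fun z hz x hx hxK => ?_, ?_⟩⟩
  · have hz' := hZ (hfin.mem_toFinset.1 hz)
    rw [mem_ball] at hx
    rcases hK hxK with h | h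
    · have h1 : r ≤ infDist z Vᶜ := hz'.2
      have := infDist_le_dist_of_mem (x := z) h
      rw [dist_comm] at this
      linarith
    · obtain ⟨y, hy, h1⟩ := mem_thickening_iff.1 (cthickening_subset_thickening' (half_pos
        (by linarith : 0 < d)) hηd E h)
      have := hOE z hz'.1 y hy
      have := dist_triangle z x y
      rw [dist_comm z x] at this
      linarith
  · rintro A hin ⟨U, hU, ⟨y, hy, hy'⟩, x, hx, hx'⟩
    rcases att_near hy' with h1 | ⟨⟨p, hp, h1⟩, q, hq, h2⟩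
    · exact absurd h1 (hin U hU hy)
    rcases le_total (infDist x Vᶜ) r with h3 | h3
    · exact Or.inl ⟨U, hU, ⟨x, hx, near_sub_att ho.isClosed_compl (nonempty_compl.2 hV) hx' h3⟩,
        y, hy, mem_cthickening_of_dist_le y p η E hp h1⟩
    · obtain ⟨z, hz, h4⟩ := mem_iUnion₂.1 (hcov ⟨hx', h3⟩)
      refine Or.inr ⟨z, hfin.mem_toFinset.2 hz, jn_mono ball_subset_closedBall subset_rfl
        (jc_sub_jn isOpen_ball isOpen_thickening ⟨U, hU, ⟨x, hx, h4⟩, y, hy, ?_⟩)⟩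
      exact mem_thickening_iff.2 ⟨q, hq, by linarith⟩

end Vale.Agent.P155.Geo
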