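import Vale.Agent.P155H.Slit0
import Vale.Agent.P155H.Split
import Vale.Agent.P155Z.TOPO

/-!
# P155, geometry: slit domains
-/

namespace Vale.Agent.P155.Geo

open Set Metric Topology Filter TopologicalSpace Vale.Agent.P155 Vale.Agent.P155.Q1
  Vale.Agent.P155.Tree

variable {V D E K U : Set ℂ} {x y : ℂ} {η : ℝ}

theorem dom_conn (hD : Dom D) : IsConnected D := by
  have := hD.2.2.2
  exact isConnected_iff_connectedSpace.2 inferInstance

theorem dom_ne_univ (hD : Dom D) : D ≠ univ := Topo.ne_univ hD.2.1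

theorem dom_compl_conn (hD : Dom D) : IsConnected Dᶜ :=
  ⟨nonempty_compl.2 (dom_ne_univ hD), (topo.1 D hD).2.1⟩

/-- the holes of a closed connected set which contains the complement are domains -/
theorem dom_hole (ho : IsOpen V) (hb : Bornology.IsBounded V) (hK : IsClosed K)
    (hc : IsPreconnected K) (hVK : Vᶜ ⊆ K) (hU : IsHole V K U) : Dom U := by
  obtain ⟨z, hz, rfl⟩ := hU
  exact ⟨NT34.Y.comp_open ho hK, hb.subset (NT34.Y.comp_sub.trans sdiff_subset),
    ⟨z, mem_connectedComponentIn hz⟩, NT34.Y.comp_simplyConnected ho hb hK hc (fun p hp => by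
      rw [ho.frontier_eq] at hp
      exact hVK hp.2) hz⟩

/-- a connected bounded open set with connected complement is a domain -/
theorem dom_of_compl (ho : IsOpen D) (hb : Bornology.IsBounded D) (hD : IsConnected D)
    (hc : IsPreconnected Dᶜ) : Dom D := by
  obtain ⟨z, hz⟩ := hD.1
  refine dom_hole ho hb ho.isClosed_compl hc subset_rfl ⟨z, ⟨hz, not_not.2 hz⟩, ?_⟩
  rw [sdiff_compl, inter_self]
  exact (hD.2.connectedComponentIn hz).symm

theorem compl_slit : (D \ segment ℝ x y)ᶜ = Dᶜ ∪ segment ℝ x y := by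
  rw [sdiff_eq, compl_inter, compl_compl]

theorem dom_slit (hD : Dom D) (hη : 0 < η) (hxy : dist x y = η) (hB : ball x η ⊆ D)
    (hy : y ∉ D) : Dom (D \ segment ℝ x y) := by
  refine dom_of_compl (hD.1.sdiff (seg_closed x y)) (hD.2.1.subset sdiff_subset)
    (slit_conn hD.1 (dom_conn hD).2 hη hxy hB hy) ?_
  rw [compl_slit]
  exact (dom_compl_conn hD).2.union y hy (right_mem_segment ℝ x y)
    (convex_segment x y).isPreconnected

/-- **Induction along slits**: removing finitely many segments of length `η`, which start in `E`,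
one reaches a domain whose complement is close to all of `E`. -/
theorem slit_ind (hV : Dom V) (hE : IsCompact E) (hc : IsPreconnected (Vᶜ ∪ E)) (hη : 0 < η)
    (p : Set ℂ → Prop) (h0 : p V)
    (step : ∀ D, Dom D → D ⊆ V → V \ D ⊆ cthickening η E → p D → ∀ x ∈ E, ∀ y, y ∉ D →
      dist x y = η → ball x η ⊆ D → p (D \ segment ℝ x y)) :
    ∃ D, Dom D ∧ D ⊆ V ∧ V \ D ⊆ cthickening η E ∧ E ⊆ cthickening η Dᶜ ∧ p D := by
  obtain ⟨D, ⟨h1, h2, h3, h4⟩, h5⟩ := slit_ind0 (dom_ne_univ hV) hE hc hη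
    (fun D => Dom D ∧ D ⊆ V ∧ V \ D ⊆ cthickening η E ∧ p D) (fun D h => h.1.1)
    (fun D h => h.2.1) ⟨hV, subset_rfl, by simp, h0⟩ (by
      rintro D ⟨h1, h2, h3, h4⟩ x hx y hy h5 h6
      refine ⟨dom_slit h1 hη h5 h6 hy, sdiff_subset.trans h2, fun z hz => ?_,
        step D h1 h2 h3 h4 x hx y hy h5 h6⟩
      by_cases h7 : z ∈ D
      · have h8 : z ∈ segment ℝ x y := by
          by_contra h8
          exact hz.2 ⟨h7, h8⟩
        exact mem_cthickening_of_dist_le z x η E hx (h5 ▸ (seg_dist h8).1)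
      · exact h3 ⟨hz.1, h7⟩)
  exact ⟨D, h1, h2, h3, h5, h4⟩

end Vale.Agent.P155.Geo
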