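import Vale.Agent.P155S.Defs
import Vale.Agent.P155H.Slit

/-!
# P155, geometry: fillings
-/

namespace Vale.Agent.P155.Geo

open Set Metric Topology Filter Bornology Vale.Agent.P155 Vale.Agent.P155.Q1
  Vale.Agent.P155.Tree Vale.Agent.P155.Soup

variable {C C' S Ω U : Set ℂ} {z c : ℂ} {R : ℝ}

theorem mem_fill : z ∈ fill C ↔ IsBounded (connectedComponentIn (closure C)ᶜ z) := Iff.rfl

theorem closure_sub_fill : closure C ⊆ fill C := fun z hz => by
  rw [mem_fill, connectedComponentIn_eq_empty (show z ∉ (closure C)ᶜ from not_not.2 hz)]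
  exact isBounded_empty

theorem sub_fill : C ⊆ fill C := subset_closure.trans closure_sub_fill

theorem fill_closure : fill (closure C) = fill C := by
  unfold fill
  rw [closure_closure]

/-- an unbounded connected set off the closure of `C` misses the filling -/
theorem disj_fill (hS : IsPreconnected S) (hb : ¬ IsBounded S) (h : S ⊆ (closure C)ᶜ) :
    S ⊆ (fill C)ᶜ := fun _ hz hf =>
  hb ((mem_fill.1 hf).subset (hS.subset_connectedComponentIn hz h))

theorem not_mem_fill : z ∉ fill C ↔
    ∃ S, IsPreconnected S ∧ ¬ IsBounded S ∧ S ⊆ (closure C)ᶜ ∧ z ∈ S := by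
  refine ⟨fun h => ⟨_, isPreconnected_connectedComponentIn, h, connectedComponentIn_subset _ _,
    mem_connectedComponentIn fun hz => h (closure_sub_fill hz)⟩, ?_⟩
  rintro ⟨S, h1, h2, h3, h4⟩
  exact disj_fill h1 h2 h3 h4

/-- a connected set off the closure of `C` lies in the filling or misses it -/
theorem sub_fill_of_meet (hS : IsPreconnected S) (h : S ⊆ (closure C)ᶜ) (hz : z ∈ S)
    (hf : z ∈ fill C) : S ⊆ fill C := fun w hw => by
  rw [mem_fill, ← connectedComponentIn_eq (hS.subset_connectedComponentIn hz h hw)]
  exact hf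

theorem fill_mono (h : C ⊆ C') : fill C ⊆ fill C' := fun _ hz =>
  (mem_fill.1 hz).subset (connectedComponentIn_mono _ (compl_subset_compl.2 (closure_mono h)))

theorem isClosed_fill : IsClosed (fill C) := by
  rw [← isOpen_compl_iff, isOpen_iff_forall_mem_open]
  intro z hz
  have hz' : z ∈ (closure C)ᶜ := fun h => hz (closure_sub_fill h)
  exact ⟨_, disj_fill isPreconnected_connectedComponentIn hz (connectedComponentIn_subset _ _),
    isClosed_closure.isOpen_compl.connectedComponentIn, mem_connectedComponentIn hz'⟩

theorem isOpen_fill_diff : IsOpen (fill C \ closure C) := by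
  rw [isOpen_iff_forall_mem_open]
  rintro z ⟨h1, h2⟩
  exact ⟨_, fun w hw => ⟨sub_fill_of_meet isPreconnected_connectedComponentIn
      (connectedComponentIn_subset _ _) (mem_connectedComponentIn h2) h1 hw,
      connectedComponentIn_subset (closure C)ᶜ z hw⟩,
    isClosed_closure.isOpen_compl.connectedComponentIn, mem_connectedComponentIn h2⟩

theorem frontier_fill : frontier (fill C) ⊆ closure C := by
  intro z hz
  by_contra h
  rw [isClosed_fill.frontier_eq] at hz
  exact hz.2 (interior_maximal sdiff_subset isOpen_fill_diff ⟨hz.1, h⟩)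

theorem frontier_int_fill : frontier (interior (fill C)) ⊆ closure C :=
  frontier_interior_subset.trans frontier_fill

theorem fill_fill : fill (fill C) = fill C := by
  refine Subset.antisymm (fun z hz => ?_) sub_fill
  by_contra h
  obtain ⟨S, h1, h2, h3, h4⟩ := not_mem_fill.1 h
  exact disj_fill h1 h2 (by
    rw [isClosed_fill.closure_eq]
    exact disj_fill h1 h2 h3) h4 hz

theorem fill_sub_fill (h : C ⊆ fill C') : fill C ⊆ fill C' :=
  (fill_mono h).trans fill_fill.subset

/-- a closed set whose complement is connected and unbounded is full -/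
theorem fill_sub (hc : IsPreconnected Uᶜ) (hb : IsBounded U) (h : closure C ⊆ U) :
    fill C ⊆ U := fun z hz => by
  by_contra hzU
  refine disj_fill hc (fun h1 => NormedSpace.unbounded_univ ℝ ℂ ?_) (compl_subset_compl.2 h) hzU hz
  rw [← union_compl_self U]
  exact hb.union h1

theorem fill_sub_dom (hΩ : Dom Ω) (h : closure C ⊆ Ω) : fill C ⊆ Ω :=
  fill_sub (dom_compl_conn hΩ).2 hΩ.2.1 h

theorem fill_eq (hC : IsClosed C) (hc : IsPreconnected Cᶜ) (hb : IsBounded C) : fill C = C :=
  (fill_sub hc hb hC.closure_subset).antisymm sub_fill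

theorem dom_ball (hR : 0 < R) : Dom (ball c R) := by
  refine ⟨isOpen_ball, isBounded_ball, ⟨c, mem_ball_self hR⟩, ?_⟩
  have : ContractibleSpace (ball c R) :=
    (convex_ball c R).contractibleSpace ⟨c, mem_ball_self hR⟩
  infer_instance

theorem fill_sub_closedBall (h : C ⊆ closedBall c R) : fill C ⊆ closedBall c R := by
  intro z hz
  rw [mem_closedBall]
  refine le_of_forall_gt_imp_ge_of_dense fun r hr => ?_
  have h1 : closure C ⊆ ball c (max r 1) :=
    (closure_minimal h isClosed_closedBall).trans
      (closedBall_subset_ball (hr.trans_le (le_max_left _ _)))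
  by_cases h0 : 0 < r
  · exact (mem_ball.1 (fill_sub_dom (dom_ball h0) ((closure_minimal h isClosed_closedBall).trans
      (closedBall_subset_ball hr)) hz)).le
  · have h2 : C = ∅ := by
      rw [closedBall_eq_empty.2 (hr.trans_le (not_lt.1 h0))] at h
      exact subset_empty_iff.1 h
    subst h2
    rw [fill_eq isClosed_empty (by simpa using isPreconnected_univ) isBounded_empty] at hz
    exact hz.elim

theorem isBounded_fill (hb : IsBounded C) : IsBounded (fill C) := by
  obtain ⟨R, hR⟩ := hb.subset_closedBall (0 : ℂ)
  exact isBounded_closedBall.subset (fill_sub_closedBall hR)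

theorem isCompact_fill (hb : IsBounded C) : IsCompact (fill C) :=
  isCompact_of_isClosed_isBounded isClosed_fill (isBounded_fill hb)

theorem diam_fill (hb : IsBounded C) : diam (fill C) ≤ 2 * diam C := by
  rcases C.eq_empty_or_nonempty with rfl | ⟨c, hc⟩
  · rw [fill_eq isClosed_empty (by simpa using isPreconnected_univ) isBounded_empty]
    simp
  · exact (diam_mono (fill_sub_closedBall fun x hx => dist_le_diam_of_mem hb hx hc)
      isBounded_closedBall).trans (diam_closedBall diam_nonneg)

/-- the complement of the filling is connected -/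
theorem fill_compl_preconn (hb : IsBounded C) : IsPreconnected (fill C)ᶜ := by
  obtain ⟨R, hR0, hR⟩ := hb.closure.subset_ball_lt 0 (0 : ℂ)
  have h1 := dom_compl_conn (dom_ball (c := 0) hR0)
  have h2 : ¬ IsBounded (ball (0 : ℂ) R)ᶜ := fun h => NormedSpace.unbounded_univ ℝ ℂ (by
    rw [← union_compl_self (ball (0 : ℂ) R)]
    exact isBounded_ball.union h)
  have h3 : (ball (0 : ℂ) R)ᶜ ⊆ (closure C)ᶜ := compl_subset_compl.2 hR
  obtain ⟨p, hp⟩ := h1.1
  refine isPreconnected_of_forall p fun z hz => ?_
  obtain ⟨S, h4, h5, h6, h7⟩ := not_mem_fill.1 hz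
  obtain ⟨q, hq, hq'⟩ := not_subset.1 fun h : S ⊆ ball (0 : ℂ) R => h5 (isBounded_ball.subset h)
  exact ⟨_, union_subset (disj_fill h1.2 h2 h3) (disj_fill h4 h5 h6), Or.inl hp, Or.inr h7,
    h1.2.union q hq' hq h4⟩

theorem fill_compl_unbdd (hb : IsBounded C) : ¬ IsBounded (fill C)ᶜ := fun h =>
  NormedSpace.unbounded_univ ℝ ℂ (by
    rw [← union_compl_self (fill C)]
    exact (isBounded_fill hb).union h)

/-- the closure of a bounded component of the complement of a closed set meets the set -/
theorem comp_touch {K : Set ℂ} (hK : IsClosed K) (hz : z ∈ Kᶜ)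
    (hb : IsBounded (connectedComponentIn Kᶜ z)) :
    (closure (connectedComponentIn Kᶜ z) ∩ K).Nonempty := by
  obtain ⟨p, hp⟩ := nonempty_frontier_iff.2 ⟨⟨z, mem_connectedComponentIn hz⟩, Topo.ne_univ hb⟩
  refine ⟨p, frontier_subset_closure hp, ?_⟩
  have h1 := NT34.Y.frontier_comp hK.isOpen_compl hp
  rw [frontier_compl] at h1
  exact hK.frontier_subset h1

theorem fill_preconn (hC : IsPreconnected C) : IsPreconnected (fill C) := by
  have key : ∀ z ∈ fill C, ∃ t, t ⊆ fill C ∧ z ∈ t ∧ closure C ⊆ t ∧ IsPreconnected t ∧
      (closure C).Nonempty := by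
    intro z hz
    by_cases h : z ∈ closure C
    · exact ⟨_, closure_sub_fill, h, subset_rfl, hC.closure, z, h⟩
    · obtain ⟨p, h1, h2⟩ := comp_touch isClosed_closure h hz
      refine ⟨closure C ∪ closure (connectedComponentIn (closure C)ᶜ z),
        union_subset closure_sub_fill (closure_minimal (sub_fill_of_meet
          isPreconnected_connectedComponentIn (connectedComponentIn_subset _ _)
          (mem_connectedComponentIn h) hz) isClosed_fill),
        Or.inr (subset_closure (mem_connectedComponentIn h)), subset_union_left,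
        hC.closure.union p h2 h1 isPreconnected_connectedComponentIn.closure, p, h2⟩
  refine isPreconnected_of_forall_pair fun p hp q hq => ?_
  obtain ⟨t, h1, h2, h3, h4, y, hy⟩ := key p hp
  obtain ⟨t', h1', h2', h3', h4', -⟩ := key q hq
  exact ⟨t ∪ t', union_subset h1 h1', Or.inl h2, Or.inr h2', h4.union y (h3 hy) (h3' hy) h4'⟩

/-- a connected set which misses the closure of `C` lies in the filling of `C`, or misses it -/
theorem sub_or_disj (hS : IsPreconnected S) (h : Disjoint S (closure C)) :
    S ⊆ fill C ∨ Disjoint S (fill C) := by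
  rcases (S ∩ fill C).eq_empty_or_nonempty with e | ⟨z, h1, h2⟩
  · exact Or.inr (disjoint_iff_inter_eq_empty.2 e)
  · exact Or.inl (sub_fill_of_meet hS (subset_compl_iff_disjoint_right.2 h) h1 h2)

/-- the fillings of two connected sets with disjoint closures are nested or disjoint -/
theorem fill_trichotomy (hC : IsPreconnected C) (hC' : IsPreconnected C')
    (h : Disjoint (closure C) (closure C')) :
    fill C ⊆ fill C' ∨ fill C' ⊆ fill C ∨ Disjoint (fill C) (fill C') := by
  rcases sub_or_disj hC.closure h with h1 | h1
  · exact Or.inl (fill_sub_fill (subset_closure.trans h1))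
  rcases sub_or_disj hC'.closure h.symm with h2 | h2
  · exact Or.inr (Or.inl (fill_sub_fill (subset_closure.trans h2)))
  rcases sub_or_disj (C := C) (fill_preconn hC') h1.symm with h3 | h3
  · exact Or.inr (Or.inl h3)
  · exact Or.inr (Or.inr h3.symm)

/-- in the nested case, the smaller filling lies in the interior, off the closure -/
theorem fill_sub_diff (hb : IsBounded C) (hC' : IsPreconnected C')
    (h : Disjoint (closure C) (closure C')) (h1 : fill C ⊆ fill C') :
    fill C ⊆ fill C' \ closure C' := by
  refine fun z hz => ⟨h1 hz, fun hz' => ?_⟩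
  have h2 : fill C' ⊆ fill C := fill_sub_fill (subset_closure.trans
    (sub_fill_of_meet hC'.closure (subset_compl_iff_disjoint_right.2 h.symm) hz' hz))
  have e : fill C = fill C' := h1.antisymm h2
  obtain ⟨p, hp⟩ := nonempty_frontier_iff.2 ⟨⟨z, hz⟩, Topo.ne_univ (isBounded_fill hb)⟩
  exact disjoint_left.1 h (frontier_fill hp) (frontier_fill (e ▸ hp))

/-- the complement of the interior of a filling is connected -/
theorem compl_int_fill (hb : IsBounded C) : IsPreconnected (interior (fill C))ᶜ := by
  rw [← closure_compl]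
  exact (fill_compl_preconn hb).closure

/-- the components of the interior of a filling are domains -/
theorem dom_int_fill (hb : IsBounded C) (hz : z ∈ interior (fill C)) :
    Dom (connectedComponentIn (interior (fill C)) z) := by
  refine dom_hole isOpen_interior ((isBounded_fill hb).subset interior_subset)
    isOpen_interior.isClosed_compl (compl_int_fill hb) subset_rfl ⟨z, ⟨hz, not_not.2 hz⟩, ?_⟩
  rw [sdiff_compl, inter_self]

/-- the filling of the boundary of a bounded open set with connected exterior -/
theorem fill_frontier (ho : IsOpen U) (hb : IsBounded U) (hc : IsPreconnected (closure U)ᶜ) :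
    fill (frontier U) = closure U := by
  refine (fill_sub hc hb.closure (by
    rw [isClosed_frontier.closure_eq]
    exact frontier_subset_closure)).antisymm (closure_minimal (fun z hz => ?_) isClosed_fill)
  by_contra h
  obtain ⟨S, h1, h2, h3, h4⟩ := not_mem_fill.1 h
  rw [isClosed_frontier.closure_eq] at h3
  refine h2 (hb.subset (h1.subset_of_closure_inter_subset ho ⟨z, h4, hz⟩ fun w hw => ?_))
  by_contra h5
  exact h3 hw.2 (ho.frontier_eq ▸ ⟨hw.1, h5⟩)

end Vale.Agent.P155.Geo
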