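import Vale.Agent.P155.CI.Holes
import Vale.Agent.P155.U.Iface
import Vale.Agent.P155H.Att

/-!
# P155, geometry: the events that a hole joins two sets
-/

namespace Vale.Agent.P155.Geo

open Set Metric Topology Filter TopologicalSpace MeasureTheory Vale.Agent.P155
  Vale.Agent.P155.Q1 Vale.Agent.P155.Uq

/-- `x` and `y` lie in the same hole -/
def Same (Ω : Set ℂ) (x y : ℂ) : Set (NonemptyCompacts ℂ) :=
  {A | ∃ U, IsHole Ω A U ∧ x ∈ U ∧ y ∈ U}

/-- some hole meets `S` and `T` -/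
def Jn (Ω S T : Set ℂ) : Set (NonemptyCompacts ℂ) :=
  {A | ∃ U, IsHole Ω A U ∧ (U ∩ S).Nonempty ∧ (U ∩ T).Nonempty}

/-- the closure of some hole meets `S` and `T` -/
def Jc (Ω S T : Set ℂ) : Set (NonemptyCompacts ℂ) :=
  {A | ∃ U, IsHole Ω A U ∧ (closure U ∩ S).Nonempty ∧ (closure U ∩ T).Nonempty}

/-- a Borel form of `Jc` -/
def Jm (Ω S T : Set ℂ) : Set (NonemptyCompacts ℂ) :=
  ⋂ n : ℕ, Jn Ω (thickening (1 / ((n : ℝ) + 1)) S) (thickening (1 / ((n : ℝ) + 1)) T)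

/-- some hole of diameter larger than `δ` meets `T` -/
def Big (Ω : Set ℂ) (δ : ℝ) (T : Set ℂ) : Set (NonemptyCompacts ℂ) :=
  {A | ∃ U, IsHole Ω A U ∧ δ < diam U ∧ (U ∩ T).Nonempty}

/-- the holes stay inside and are locally finite -/
structure LF (Ω A : Set ℂ) : Prop where
  inside : ∀ U, IsHole Ω A U → closure U ⊆ Ω
  fin : ∀ ε : ℝ, 0 < ε → {U | IsHole Ω A U ∧ ε < diam U}.Finite

variable {Ω S T S' T' U U' : Set ℂ} {x y : ℂ} {A : NonemptyCompacts ℂ}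

theorem hole_eq {K : Set ℂ} (hU : IsHole Ω K U) (hx : x ∈ U) :
    U = connectedComponentIn (Ω \ K) x := by
  obtain ⟨z, -, rfl⟩ := hU
  exact connectedComponentIn_eq hx

theorem hole_meet {K : Set ℂ} (hU : IsHole Ω K U) (hU' : IsHole Ω K U') (hx : x ∈ U)
    (hx' : x ∈ U') : U = U' := (hole_eq hU hx).trans (hole_eq hU' hx').symm

theorem hole_sub {K : Set ℂ} (hU : IsHole Ω K U) : U ⊆ Ω \ K := by
  obtain ⟨z, -, rfl⟩ := hU
  exact connectedComponentIn_subset _ _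

theorem hole_conn {K : Set ℂ} (hU : IsHole Ω K U) : IsConnected U := by
  obtain ⟨z, hz, rfl⟩ := hU
  exact isConnected_connectedComponentIn_iff.2 hz

/-- a connected set off `K` lies in a hole -/
theorem sub_hole {K C : Set ℂ} (hU : IsHole Ω K U) (hC : IsPreconnected C) (h : C ⊆ Ω \ K)
    (hx : x ∈ C) (hxU : x ∈ U) : C ⊆ U := by
  rw [hole_eq hU hxU]
  exact hC.subset_connectedComponentIn hx h

theorem isOpen_same (ho : IsOpen Ω) (x y : ℂ) : IsOpen (Same Ω x y) := by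
  refine Metric.isOpen_iff.2 ?_
  rintro A ⟨U, hU, hx, hy⟩
  have hUo : IsOpen U := CI.Holes.hole_open ho A.isCompact.isClosed hU
  obtain ⟨γ, hγ⟩ := ((hUo.isConnected_iff_isPathConnected.1 (hole_conn hU)).joinedIn x hx y hy)
  have hc : IsCompact (range γ) := isCompact_range γ.continuous
  have hs : range γ ⊆ Ω \ A := by
    rintro _ ⟨t, rfl⟩
    exact hole_sub hU (hγ t)
  obtain ⟨ε, hε, hd⟩ := hc.exists_thickening_subset_open A.isCompact.isClosed.isOpen_compl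
    fun z hz => (hs hz).2
  refine ⟨ε, hε, fun A' hA' => ?_⟩
  have hs' : range γ ⊆ Ω \ A' := by
    intro z hz
    refine ⟨(hs hz).1, fun hz' => ?_⟩
    rw [mem_ball, NonemptyCompacts.dist_eq] at hA'
    obtain ⟨w, hw, h1⟩ := exists_dist_lt_of_hausdorffDist_lt hz' hA'
      (hausdorffEDist_ne_top_of_nonempty_of_bounded A'.nonempty A.nonempty
        A'.isCompact.isBounded A.isCompact.isBounded)
    exact hd (mem_thickening_iff.2 ⟨z, hz, by rwa [dist_comm]⟩) hw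
  have h0 : x ∈ range γ := ⟨0, γ.source⟩
  exact ⟨_, ⟨x, hs' h0, rfl⟩, mem_connectedComponentIn (hs' h0),
    (isConnected_range γ.continuous).isPreconnected.subset_connectedComponentIn h0 hs'
      ⟨1, γ.target⟩⟩

theorem isOpen_jn (ho : IsOpen Ω) (S T : Set ℂ) : IsOpen (Jn Ω S T) := by
  have e : Jn Ω S T = ⋃ x ∈ S, ⋃ y ∈ T, Same Ω x y := by
    ext A
    simp only [mem_iUnion]
    constructor
    · rintro ⟨U, hU, ⟨x, h1, h2⟩, y, h3, h4⟩
      exact ⟨x, h2, y, h4, U, hU, h1, h3⟩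
    · rintro ⟨x, h2, y, h4, U, hU, h1, h3⟩
      exact ⟨U, hU, ⟨x, h1, h2⟩, y, h3, h4⟩
  rw [e]
  exact isOpen_biUnion fun x _ => isOpen_biUnion fun y _ => isOpen_same ho x y

theorem measurableSet_jm (ho : IsOpen Ω) (S T : Set ℂ) : MeasurableSet (Jm Ω S T) :=
  MeasurableSet.iInter fun _ => (isOpen_jn ho _ _).measurableSet

theorem lt_diam_iff (hb : Bornology.IsBounded U) {δ : ℝ} (hδ : 0 ≤ δ) :
    δ < diam U ↔ ∃ x ∈ U, ∃ y ∈ U, δ < dist x y := by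
  constructor
  · intro h
    by_contra hc
    push Not at hc
    exact (diam_le_of_forall_dist_le hδ hc).not_gt h
  · rintro ⟨x, hx, y, hy, h⟩
    exact h.trans_le (dist_le_diam_of_mem hb hx hy)

theorem isOpen_big (ho : IsOpen Ω) (hb : Bornology.IsBounded Ω) {δ : ℝ} (hδ : 0 ≤ δ)
    (T : Set ℂ) : IsOpen (Big Ω δ T) := by
  have e : Big Ω δ T = ⋃ z ∈ T, ⋃ x, ⋃ y, ⋃ (_ : δ < dist x y), Same Ω z x ∩ Same Ω z y := by
    ext A
    simp only [mem_iUnion]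
    constructor
    · rintro ⟨U, hU, h1, z, h2, h3⟩
      obtain ⟨x, hx, y, hy, h⟩ := (lt_diam_iff (hb.subset (CI.Holes.hole_sub hU)) hδ).1 h1
      exact ⟨z, h3, x, y, h, ⟨U, hU, h2, hx⟩, U, hU, h2, hy⟩
    · rintro ⟨z, h3, x, y, h, ⟨U, hU, h2, hx⟩, U', hU', h2', hy⟩
      obtain rfl := hole_meet hU hU' h2 h2'
      exact ⟨U, hU, (lt_diam_iff (hb.subset (CI.Holes.hole_sub hU)) hδ).2 ⟨x, hx, y, hy, h⟩, z, h2, h3⟩
  rw [e]
  exact isOpen_biUnion fun z _ => isOpen_iUnion fun x => isOpen_iUnion fun y =>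
    isOpen_iUnion fun _ => (isOpen_same ho z x).inter (isOpen_same ho z y)

theorem jn_mono (h : S ⊆ S') (h' : T ⊆ T') : Jn Ω S T ⊆ Jn Ω S' T' := by
  rintro A ⟨U, hU, h1, h2⟩
  exact ⟨U, hU, h1.mono (inter_subset_inter_right _ h), h2.mono (inter_subset_inter_right _ h')⟩

theorem jc_mono (h : S ⊆ S') (h' : T ⊆ T') : Jc Ω S T ⊆ Jc Ω S' T' := by
  rintro A ⟨U, hU, h1, h2⟩
  exact ⟨U, hU, h1.mono (inter_subset_inter_right _ h), h2.mono (inter_subset_inter_right _ h')⟩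

theorem jc_symm : Jc Ω S T = Jc Ω T S := by
  ext A
  constructor <;> rintro ⟨U, hU, h1, h2⟩ <;> exact ⟨U, hU, h2, h1⟩

theorem jn_sub_jc : Jn Ω S T ⊆ Jc Ω S T := by
  rintro A ⟨U, hU, h1, h2⟩
  exact ⟨U, hU, h1.mono (inter_subset_inter_left _ subset_closure),
    h2.mono (inter_subset_inter_left _ subset_closure)⟩

theorem jc_sub_jn (hS : IsOpen S) (hT : IsOpen T) : Jc Ω S T ⊆ Jn Ω S T := by
  rintro A ⟨U, hU, h1, h2⟩
  exact ⟨U, hU, (closure_inter_open_nonempty_iff hS).1 h1,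
    (closure_inter_open_nonempty_iff hT).1 h2⟩

theorem jc_sub_jm : Jc Ω S T ⊆ Jm Ω S T := fun _ hA => mem_iInter.2 fun _ =>
  jc_sub_jn isOpen_thickening isOpen_thickening
    (jc_mono (self_subset_thickening Nat.one_div_pos_of_nat _)
      (self_subset_thickening Nat.one_div_pos_of_nat _) hA)

theorem closure_meets (hb : Bornology.IsBounded U) (hS : IsClosed S)
    (h : ∃ᶠ n : ℕ in atTop, (U ∩ thickening (1 / ((n : ℝ) + 1)) S).Nonempty) :
    (closure U ∩ S).Nonempty := by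
  by_contra hc
  obtain ⟨ε, hε, hd⟩ := hb.isCompact_closure.exists_thickening_subset_open hS.isOpen_compl
    fun z hz hz' => hc ⟨z, hz, hz'⟩
  obtain ⟨n, ⟨z, hz, hz'⟩, h1⟩ := (h.and_eventually
    (tendsto_one_div_add_atTop_nhds_zero_nat.eventually (gt_mem_nhds hε))).exists
  obtain ⟨w, hw, h2⟩ := mem_thickening_iff.1 hz'
  exact hd (mem_thickening_iff.2 ⟨z, subset_closure hz, by rw [dist_comm]; exact h2.trans h1⟩) hw

/-- for locally finite holes and separated closed sets the Borel form is exact -/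
theorem jm_sub_jc (hb : Bornology.IsBounded Ω) (hS : IsClosed S) (hT : IsClosed T) {d : ℝ}
    (hd : 0 < d) (hST : ∀ x ∈ S, ∀ y ∈ T, d ≤ dist x y)
    (hfin : ∀ ε : ℝ, 0 < ε → {U | IsHole Ω A U ∧ ε < diam U}.Finite) (h : A ∈ Jm Ω S T) :
    A ∈ Jc Ω S T := by
  have h1 : ∀ᶠ n : ℕ in atTop, ∃ U ∈ {U | IsHole Ω A U ∧ d / 2 < diam U},
      (U ∩ thickening (1 / ((n : ℝ) + 1)) S).Nonempty ∧
        (U ∩ thickening (1 / ((n : ℝ) + 1)) T).Nonempty := by
    filter_upwards [tendsto_one_div_add_atTop_nhds_zero_nat.eventually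
      (gt_mem_nhds (show 0 < d / 4 by positivity))] with n hn
    obtain ⟨U, hU, h2, h3⟩ := mem_iInter.1 h n
    refine ⟨U, ⟨hU, ?_⟩, h2, h3⟩
    obtain ⟨x, hx, hx'⟩ := h2
    obtain ⟨y, hy, hy'⟩ := h3
    obtain ⟨x', h4, h5⟩ := mem_thickening_iff.1 hx'
    obtain ⟨y', h6, h7⟩ := mem_thickening_iff.1 hy'
    have h8 := dist_le_diam_of_mem (hb.subset (CI.Holes.hole_sub hU)) hx hy
    have h9 := hST x' h4 y' h6
    have h10 := dist_triangle4 x' x y y'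
    rw [dist_comm x' x] at h10
    linarith
  obtain ⟨U, hU, h2⟩ :=
    (frequently_exists_finite (hfin (d / 2) (half_pos hd))).1 h1.frequently
  have hUb := hb.subset (CI.Holes.hole_sub hU.1)
  exact ⟨U, hU.1, closure_meets hUb hS (h2.mono fun n hn => hn.1),
    closure_meets hUb hT (h2.mono fun n hn => hn.2)⟩

/-- the big holes stay away from the boundary -/
theorem not_big (hb : Bornology.IsBounded Ω) (ho : IsOpen Ω) (h : LF Ω A) {δ : ℝ} (hδ : 0 < δ) :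
    ∀ᶠ n : ℕ in atTop, A ∉ Big Ω δ (thickening (1 / ((n : ℝ) + 1)) Ωᶜ) := by
  by_contra hc
  have h1 : ∃ᶠ n : ℕ in atTop, ∃ U ∈ {U | IsHole Ω A U ∧ δ < diam U},
      (U ∩ thickening (1 / ((n : ℝ) + 1)) Ωᶜ).Nonempty := by
    refine (not_eventually.1 hc).mono fun n hn => ?_
    obtain ⟨U, hU, h2, h3⟩ := not_not.1 hn
    exact ⟨U, ⟨hU, h2⟩, h3⟩
  obtain ⟨U, hU, h2⟩ := (frequently_exists_finite (h.fin δ hδ)).1 h1
  obtain ⟨z, h3, h4⟩ := closure_meets (hb.subset (CI.Holes.hole_sub hU.1)) ho.isClosed_compl h2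
  exact h4 (h.inside U hU.1 h3)

theorem big_mono {δ δ' : ℝ} (h : δ' ≤ δ) (h' : T ⊆ T') : Big Ω δ T ⊆ Big Ω δ' T' := by
  rintro A ⟨U, hU, h1, h2⟩
  exact ⟨U, hU, h.trans_lt h1, h2.mono (inter_subset_inter_right _ h')⟩

/-- in a fixed domain, a big hole near the boundary is unlikely -/
theorem big_small (hb : Bornology.IsBounded Ω) (ho : IsOpen Ω) {Θ : Type} [MeasurableSpace Θ]
    (P : Measure Θ) [IsFiniteMeasure P] {A : Θ → NonemptyCompacts ℂ} (hA : Measurable A)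
    (h : ∀ᵐ x ∂P, LF Ω (A x)) {δ : ℝ} (hδ : 0 < δ) {ε : ENNReal} (hε : 0 < ε) :
    ∃ s : ℝ, 0 < s ∧ P (A ⁻¹' Big Ω δ (thickening s Ωᶜ)) ≤ ε := by
  have h1 := tendsto_measure_iInter_atTop (μ := P)
    (s := fun n : ℕ => A ⁻¹' Big Ω δ (thickening (1 / ((n : ℝ) + 1)) Ωᶜ))
    (fun n => (hA (isOpen_big ho hb hδ.le _).measurableSet).nullMeasurableSet)
    (fun m n hmn => preimage_mono
      (big_mono le_rfl (thickening_mono (Nat.one_div_le_one_div hmn) _)))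
    ⟨0, measure_ne_top _ _⟩
  have h2 : P (⋂ n : ℕ, A ⁻¹' Big Ω δ (thickening (1 / ((n : ℝ) + 1)) Ωᶜ)) = 0 := by
    refine measure_eq_zero_iff_ae_notMem.2 (h.mono fun x hx hc => ?_)
    obtain ⟨n, hn⟩ := (not_big hb ho hx hδ).exists
    exact hn (mem_iInter.1 hc n)
  rw [h2] at h1
  obtain ⟨n, hn⟩ := (h1.eventually (ge_mem_nhds hε)).exists
  exact ⟨_, Nat.one_div_pos_of_nat, hn⟩

/-- a hole which joins two distant sets is big -/
theorem jc_sub_big (hb : Bornology.IsBounded Ω) {δ : ℝ} (hT : IsOpen T') (h : T ⊆ T')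
    (hST : ∀ x ∈ S, ∀ y ∈ T, δ < dist x y) : Jc Ω S T ⊆ Big Ω δ T' := by
  rintro A ⟨U, hU, ⟨x, h1, h2⟩, y, h3, h4⟩
  refine ⟨U, hU, ?_, (closure_inter_open_nonempty_iff hT).1 ⟨y, h3, h h4⟩⟩
  rw [← diam_closure]
  exact (hST x h2 y h4).trans_le
    (dist_le_diam_of_mem (hb.subset (CI.Holes.hole_sub hU)).closure h1 h3)

end Vale.Agent.P155.Geo
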