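import Vale.Agent.P155H.Conf
import Vale.Agent.P155Z.UL
import Vale.Agent.P155Z.TOPO

/-!
# P155, geometry: an estimate which is uniform in the domain
-/

namespace Vale.Agent.P155.Geo

open Set Metric Topology Filter TopologicalSpace MeasureTheory Vale.Agent.P155
  Vale.Agent.P155.Q1 Vale.Agent.P155.Uq Vale.Agent.P155.Tree

theorem lf_of_loops {Ω : Set ℂ} {s : ℕ → NonemptyCompacts ℂ} {Γ : LoopColl}
    (h : HoleLoops Ω s Γ) {k : ℕ} (hk : 1 ≤ k) : LF Ω (s k) := by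
  refine ⟨fun U hU => ?_, fun ε hε => ((h.fin ε hε).image Prod.snd).subset ?_⟩
  · rw [closure_eq_self_union_frontier]
    exact union_subset (CI.Holes.hole_sub hU) (h.inside k U hk hU)
  · rintro U ⟨hU, hd⟩
    exact ⟨(k, U), ⟨hk, hU, hd⟩, rfl⟩

section

variable {Ω : Set ℂ} {Θ : Type} [MeasurableSpace Θ] {P : Measure Θ} [IsProbabilityMeasure P]
  {G : ℕ → Θ → NonemptyCompacts ℂ} {H : ℕ → Θ → (ℂ → ℝ) → ℝ}

/-- the holes of signed carpets stay inside and are locally finite -/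
theorem lf_ae (hΩ : Dom Ω) (h : IsSignedCarpets P Ω G H) :
    ∀ᵐ x ∂P, ∀ k, 1 ≤ k → LF Ω (G k x) := by
  obtain ⟨μ, hμ⟩ := exists_nested hΩ
  obtain ⟨C, -, hC⟩ := ul Ω hΩ μ hμ
  filter_upwards [ae_of_ae_map (NT730Y.meas_seq h).aemeasurable (hC Θ _ P G H ‹_› h).1] with
    x hx k hk
  exact lf_of_loops hx hk

/-- in a fixed domain, a big hole near the boundary is unlikely -/
theorem bdry_small (hΩ : Dom Ω) (h : IsSignedCarpets P Ω G H) {δ : ℝ} (hδ : 0 < δ)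
    {ε : ENNReal} (hε : 0 < ε) :
    ∃ s : ℝ, 0 < s ∧ P (G 1 ⁻¹' Big Ω δ (thickening s Ωᶜ)) ≤ ε :=
  big_small hΩ.2.1 hΩ.1 P (h.meas 1).1 ((lf_ae hΩ h).mono fun _ hx => hx 1 le_rfl) hδ hε

/-- the law of one carpet is unique -/
theorem law_eq (hΩ : Dom Ω) (h : IsSignedCarpets P Ω G H) {Θ' : Type} [MeasurableSpace Θ']
    {P' : Measure Θ'} [IsProbabilityMeasure P'] {G' : ℕ → Θ' → NonemptyCompacts ℂ}
    {H' : ℕ → Θ' → (ℂ → ℝ) → ℝ} (h' : IsSignedCarpets P' Ω G' H') (k : ℕ) :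
    P.map (G k) = P'.map (G' k) := by
  have e := congrArg (Measure.map fun s : ℕ → NonemptyCompacts ℂ => s k)
    (NT730Y.uniq_law hΩ.1 hΩ.2.1 hΩ.2.2.1 h h')
  rwa [Measure.map_map (measurable_pi_apply k) (NT730Y.meas_seq h),
    Measure.map_map (measurable_pi_apply k) (NT730Y.meas_seq h')] at e

end

/-- **Lemma U**: uniformly in the domain `W`, it is unlikely that a hole meets a disc well inside
`W` and comes close to the complement of `W`. -/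
theorem lemU (D : ℝ) {r : ℝ} (hr : 0 < r) {ε : ENNReal} (hε : 0 < ε) : ∃ s : ℝ, 0 < s ∧
    ∀ W : Set ℂ, Dom W → (∀ x ∈ W, ∀ y ∈ W, dist x y ≤ D) → ∀ z₀, ball z₀ r ⊆ W →
    ∀ (Θ : Type) (_ : MeasurableSpace Θ) (P : Measure Θ) (G : ℕ → Θ → NonemptyCompacts ℂ)
      (H : ℕ → Θ → (ℂ → ℝ) → ℝ), IsProbabilityMeasure P → IsSignedCarpets P W G H →
      P (G 1 ⁻¹' Jn W (closedBall z₀ (r / 2)) (thickening s Wᶜ)) ≤ ε := by
  obtain ⟨ν, hν⟩ := exists_nested dom_DD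
  obtain ⟨Θ₀, m₀, P₀, G₀, ξ₀, hf⟩ := fair_of hν
  have hP₀ := hf.prob
  obtain ⟨t, ht, h1⟩ := bdry_small dom_DD hf.sc (show (0 : ℝ) < 1 / 4 by norm_num) hε
  set ρ : ℝ := 1 - min t (1 / 4) with hρ
  have h2 : ρ < 1 := sub_lt_self _ (lt_min ht (by norm_num))
  have h3 : 3 / 4 ≤ ρ := by linarith [min_le_right t (1 / 4)]
  refine ⟨min 1 (low (D + 1 + r) r ρ), lt_min one_pos (low_pos hr), ?_⟩
  intro W hW hD z₀ hB Θ mΘ P G H hP hG
  obtain ⟨a, b, hab, h0⟩ := Rm.exists_conf hW.1 hW.2.2.2 (Topo.ne_univ hW.2.1)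
    (hB (mem_ball_self hr))
  have hfc : IsConnected (frontier W) := (topo.1 W hW).1
  have h := hab.symm
  have sc := CI.carp h (CI.ana _ _ _ _ h) dom_DD.2.1 dom_DD.2.2.1 hW.2.1 hfc.nonempty hfc hf
  have hm := (isOpen_jn hW.1 (closedBall z₀ (r / 2))
    (thickening (min 1 (low (D + 1 + r) r ρ)) Wᶜ)).measurableSet
  rw [← Measure.map_apply (hG.meas 1).1 hm, law_eq hW hG sc 1, Measure.map_apply (sc.meas 1).1 hm]
  refine le_trans (measure_mono fun x hx => ?_) h1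
  exact big_mono le_rfl (thickening_mono (by linarith [min_le_left t (1 / 4)]) _)
    (jn_conf hab h0 hr hB hD h2 h3 rfl hx)

end Vale.Agent.P155.Geo
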