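import Vale.Agent.P155H.Att
import Mathlib.Analysis.Convex.PathConnected
import Mathlib.Analysis.Convex.Star
import Mathlib.Topology.Connected.LocallyConnected
import Mathlib.Analysis.LocallyConvex.Basic
import Mathlib.Topology.MetricSpace.Cover
import Mathlib.Topology.Order.IntermediateValue

/-!
# P155, geometry: a domain minus a radius of an inscribed disc is connected
-/

namespace Vale.Agent.P155.Geo

open Set Metric Topology Filter

variable {D E : Set ℂ} {x y : ℂ} {η : ℝ}

theorem seg_closed (x y : ℂ) : IsClosed (segment ℝ x y) := by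
  rw [segment_eq_image]
  exact (isCompact_Icc.image (by fun_prop)).isClosed

/-- the slit disc is star shaped -/
theorem slit_star (hη : 0 < η) (hxy : dist x y = η) :
    StarConvex ℝ (x + (1 / 2 : ℝ) • (x - y)) (ball x η \ segment ℝ x y) ∧
      x + (1 / 2 : ℝ) • (x - y) ∈ ball x η \ segment ℝ x y := by
  have hne : x - y ≠ 0 := by
    intro h
    rw [dist_eq_norm, h, norm_zero] at hxy
    exact hη.ne hxy
  have hc : x + (1 / 2 : ℝ) • (x - y) ∈ ball x η := by
    rw [mem_ball, dist_eq_norm, add_sub_cancel_left, norm_smul, ← dist_eq_norm, hxy]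
    norm_num
    linarith
  have key : ∀ p ∈ ball x η, ∀ a b : ℝ, 0 ≤ a → 0 ≤ b → a + b = 1 →
      a • (x + (1 / 2 : ℝ) • (x - y)) + b • p ∈ segment ℝ x y → 0 < b ∧ p ∈ segment ℝ x y := by
    rintro p hp a b ha hb hab ⟨s, t, hs, ht, hst, h⟩
    have e : b • (p - x) = (t + a / 2) • (y - x) := by
      have e1 : a = 1 - b := by linarith
      have e2 : s = 1 - t := by linarith
      subst e1 e2
      simp only [Complex.real_smul] at h ⊢
      push_cast at h ⊢
      linear_combination -h
    have h1 : b * ‖p - x‖ = (t + a / 2) * η := by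
      have := congrArg norm e
      rwa [norm_smul, norm_smul, Real.norm_of_nonneg hb, Real.norm_of_nonneg (by positivity),
        ← dist_eq_norm y, dist_comm y, hxy] at this
    have hb0 : 0 < b := by
      refine hb.lt_of_ne ?_
      rintro rfl
      have : a = 1 := by linarith
      nlinarith
    rw [mem_ball, dist_eq_norm] at hp
    have h2 : (t + a / 2) / b ≤ 1 := by
      rw [div_le_one hb0]
      nlinarith
    refine ⟨hb0, 1 - (t + a / 2) / b, (t + a / 2) / b, by linarith, by positivity, by ring, ?_⟩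
    have e3 : p - x = ((t + a / 2) / b) • (y - x) := by
      rw [div_eq_inv_mul, mul_smul, ← e, smul_smul, inv_mul_cancel₀ hb0.ne', one_smul]
    rw [sub_smul, one_smul, sub_add, ← smul_sub, ← neg_sub y x, smul_neg, ← e3]
    ring
  refine ⟨fun p hp a b ha hb hab => ⟨convex_ball x η hc hp.1 ha hb hab, fun h =>
    hp.2 (key p hp.1 a b ha hb hab h).2⟩, hc, fun h => ?_⟩
  exact lt_irrefl _ (key x (mem_ball_self hη) 1 0 zero_le_one le_rfl (add_zero 1)
    (by rwa [one_smul, zero_smul, add_zero])).1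

theorem slit_conn (ho : IsOpen D) (hD : IsPreconnected D) (hη : 0 < η) (hxy : dist x y = η)
    (hB : ball x η ⊆ D) (hy : y ∉ D) : IsConnected (D \ segment ℝ x y) := by
  obtain ⟨h1, h2⟩ := slit_star hη hxy
  set c := x + (1 / 2 : ℝ) • (x - y)
  have hP : IsPreconnected (ball x η \ segment ℝ x y) :=
    (h1.isPathConnected h2).isConnected.isPreconnected
  have hPD : ball x η \ segment ℝ x y ⊆ D \ segment ℝ x y := sdiff_subset_sdiff_left hB
  have hU : IsOpen (D \ segment ℝ x y) := ho.sdiff (seg_closed x y)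
  have hsub := hP.subset_connectedComponentIn h2 hPD
  refine ⟨⟨c, hPD h2⟩, ?_⟩
  suffices h : D \ segment ℝ x y ⊆ connectedComponentIn (D \ segment ℝ x y) c by
    rw [h.antisymm (connectedComponentIn_subset _ _)]
    exact isPreconnected_connectedComponentIn
  intro z hz
  by_contra hzc
  have h3 : D ⊆ connectedComponentIn (D \ segment ℝ x y) z := by
    refine hD.subset_of_closure_inter_subset hU.connectedComponentIn
      ⟨z, hz.1, mem_connectedComponentIn hz⟩ ?_
    rintro p ⟨hp, hpD⟩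
    by_cases hs : p ∈ segment ℝ x y
    · exfalso
      have hpB : p ∈ ball x η := by
        have h4 := dist_add_dist_of_mem_segment hs
        have h5 : 0 < dist p y := dist_pos.2 fun e => hy (e ▸ hpD)
        rw [mem_ball, dist_comm]
        linarith
      obtain ⟨q, hq, hq'⟩ := mem_closure_iff.1 hp _ isOpen_ball hpB
      have h6 := hsub ⟨hq, (connectedComponentIn_subset _ _ hq').2⟩
      apply hzc
      rw [connectedComponentIn_eq h6, ← connectedComponentIn_eq hq']
      exact mem_connectedComponentIn hz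
    · obtain ⟨q, hq, hq'⟩ := mem_closure_iff.1 hp _ (hU.connectedComponentIn (x := p))
        (mem_connectedComponentIn ⟨hpD, hs⟩)
      rw [connectedComponentIn_eq hq', ← connectedComponentIn_eq hq]
      exact mem_connectedComponentIn ⟨hpD, hs⟩
  exact (connectedComponentIn_subset _ _ (h3 (hB (mem_ball_self hη)))).2 (left_mem_segment ℝ x y)

/-- the next segment -/
theorem exists_next {V : Set ℂ} (ho : IsOpen D) (hDV : D ⊆ V) (hV : V ≠ univ)
    (hc : IsPreconnected (Vᶜ ∪ E)) (hη : 0 < η) (h : ¬ E ⊆ cthickening η Dᶜ) :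
    ∃ x ∈ E, ∃ y, y ∉ D ∧ dist x y = η ∧ ball x η ⊆ D := by
  obtain ⟨p, hp, hp'⟩ := not_subset.1 h
  obtain ⟨q, hq⟩ := nonempty_compl.2 hV
  have hqD : q ∈ Dᶜ := fun h => hq (hDV h)
  have h1 : η ≤ infDist p Dᶜ := by
    by_contra h2
    obtain ⟨y, hy, h3⟩ := (infDist_lt_iff ⟨q, hqD⟩).1 (not_le.1 h2)
    exact hp' (mem_cthickening_of_dist_le p y η _ hy h3.le)
  obtain ⟨x, hx, e⟩ := hc.intermediate_value (f := fun z => infDist z Dᶜ) (Or.inl hq) (Or.inr hp)
    (continuous_infDist_pt _).continuousOn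
    (show η ∈ Icc _ _ from ⟨by rw [infDist_zero_of_mem hqD]; exact hη.le, h1⟩)
  have e' : infDist x Dᶜ = η := e
  rcases hx with hx | hx
  · rw [infDist_zero_of_mem (show x ∈ Dᶜ from fun h => hx (hDV h))] at e'
    exact absurd e' hη.ne
  obtain ⟨y, hy, e2⟩ := ho.isClosed_compl.exists_infDist_eq_dist ⟨q, hqD⟩ x
  refine ⟨x, hx, y, hy, e2 ▸ e', fun z hz => ?_⟩
  by_contra h2
  have h3 := infDist_le_dist_of_mem (x := x) (show z ∈ Dᶜ from h2)
  rw [mem_ball, dist_comm] at hz
  linarith

/-- **Induction along slits.** -/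
theorem slit_ind0 {V : Set ℂ} (hV : V ≠ univ) (hE : IsCompact E)
    (hc : IsPreconnected (Vᶜ ∪ E)) (hη : 0 < η) (p : Set ℂ → Prop) (ho : ∀ D, p D → IsOpen D)
    (hs : ∀ D, p D → D ⊆ V) (h0 : p V)
    (step : ∀ D, p D → ∀ x ∈ E, ∀ y, y ∉ D → dist x y = η → ball x η ⊆ D →
      p (D \ segment ℝ x y)) : ∃ D, p D ∧ E ⊆ cthickening η Dᶜ := by
  classical
  obtain ⟨Z, -, hfin, hcov⟩ := finite_cover_balls_of_compact hE (half_pos hη)
  have main : ∀ (n : ℕ) (D : Set ℂ), p D → {z | z ∈ Z ∧ ball z (η / 2) ⊆ D}.ncard ≤ n →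
      ∃ D, p D ∧ E ⊆ cthickening η Dᶜ := by
    intro n
    induction n using Nat.strong_induction_on with
    | _ n ih =>
      intro D hD hn
      by_cases h : E ⊆ cthickening η Dᶜ
      · exact ⟨D, hD, h⟩
      obtain ⟨x, hx, y, hy, h1, h2⟩ := exists_next (ho D hD) (hs D hD) hV hc hη h
      obtain ⟨z, hz, h3⟩ := mem_iUnion₂.1 (hcov hx)
      refine ih _ (lt_of_lt_of_le ?_ hn) _ (step D hD x hx y hy h1 h2) le_rfl
      refine ncard_lt_ncard ⟨fun w hw => ⟨hw.1, hw.2.trans sdiff_subset⟩, fun h4 => ?_⟩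
        (hfin.subset fun w hw => hw.1)
      have h5 : ball z (η / 2) ⊆ D := by
        refine Subset.trans (ball_subset_ball' ?_) h2
        rw [mem_ball, dist_comm] at h3
        linarith
      exact ((h4 ⟨hz, h5⟩).2 h3).2 (left_mem_segment ℝ x y)
  exact main _ V h0 le_rfl

end Vale.Agent.P155.Geo
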