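import Vale.Agent.P155H.LemU
import Vale.Agent.P155H.Slit
import Vale.Agent.P155.SW801.Defs

/-!
# P155, geometry: the uniform bound along the chain of slit domains
-/

namespace Vale.Agent.P155.Geo

open Set Metric Topology Filter TopologicalSpace MeasureTheory Vale.Agent.P155
  Vale.Agent.P155.Q1 Vale.Agent.P155.Uq Vale.Agent.P155.Tree

variable {V O E B T : Set ℂ} {A : NonemptyCompacts ℂ} {d r : ℝ}

/-- the hull misses `T` iff the seed misses `T` and no closed hole joins them -/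
theorem kk_disj : Disjoint (SWR.KK V B A) T ↔ Disjoint B T ∧ A ∉ Jc V B T := by
  constructor
  · intro h
    refine ⟨h.mono_left subset_union_left, ?_⟩
    rintro ⟨U, hU, h1, x, h2, h3⟩
    exact disjoint_left.1 h (Or.inr ⟨_, ⟨U, hU, h1, rfl⟩, h2⟩) h3
  · rintro ⟨h1, h2⟩
    refine disjoint_left.2 ?_
    rintro x (hx | ⟨_, ⟨U, hU, h3, rfl⟩, hx⟩) hxT
    · exact disjoint_left.1 h1 hx hxT
    · exact h2 ⟨U, hU, h3, x, hx, hxT⟩

theorem kk_sub : SWR.KK V B A ∩ V ⊆ O ↔ B ∩ V ⊆ O ∧ A ∉ Jc V B (V \ O) := by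
  have e : ∀ S : Set ℂ, S ∩ V ⊆ O ↔ Disjoint S (V \ O) := fun S => by
    rw [disjoint_left]
    exact ⟨fun h x hx hx' => hx'.2 (h ⟨hx, hx'.1⟩),
      fun h x hx => not_not.1 fun hx' => h hx.1 ⟨hx.2, hx'⟩⟩
  rw [e, e, kk_disj]

/-- only the parts of the sets inside the domain matter -/
theorem jc_inter (hin : ∀ U, IsHole V A U → closure U ⊆ V) :
    A ∈ Jc V B T ↔ A ∈ Jc V (B ∩ V) (T ∩ V) := by
  refine ⟨?_, fun h => jc_mono inter_subset_left inter_subset_left h⟩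
  rintro ⟨U, hU, ⟨x, h1, h2⟩, y, h3, h4⟩
  exact ⟨U, hU, ⟨x, h1, h2, hin U hU h1⟩, y, h3, h4, hin U hU h3⟩

/-- the splitting, for subdomains `D` of `V` -/
theorem jc_split_dom (ho : IsOpen V) (hV : V ≠ univ) (hO : IsCompact O) (hr : 0 < r)
    (hrd : r ≤ d / 2) (hOE : ∀ x ∈ O, ∀ y ∈ E, d ≤ dist x y) :
    ∃ Z : Finset ℂ, ∀ D : Set ℂ, V \ D ⊆ thickening (d / 2) E → (∀ z ∈ Z, ball z r ⊆ D) ∧
      ∀ (A : NonemptyCompacts ℂ) (S : Set ℂ), A ∈ Jc D S O →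
        A ∈ Jc D S (Att Vᶜ O r) ∨ ∃ z ∈ Z, A ∈ Jc D (ball z (r / 2)) S := by
  have hC : IsCompact (O ∩ {x | r ≤ infDist x Vᶜ}) :=
    hO.inter_right (isClosed_le continuous_const (continuous_infDist_pt _))
  obtain ⟨Z, hZ, hfin, hcov⟩ := finite_cover_balls_of_compact hC (half_pos hr)
  refine ⟨hfin.toFinset, fun D hD => ⟨fun z hz x hx => ?_, ?_⟩⟩
  · have hz' := hZ (hfin.mem_toFinset.1 hz)
    rw [mem_ball] at hx
    by_contra hxD
    by_cases h : x ∈ V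
    · obtain ⟨y, hy, h1⟩ := mem_thickening_iff.1 (hD ⟨h, hxD⟩)
      have := hOE z hz'.1 y hy
      have := dist_triangle z x y
      rw [dist_comm z x] at this
      linarith
    · have h1 : r ≤ infDist z Vᶜ := hz'.2
      have := infDist_le_dist_of_mem (x := z) (show x ∈ Vᶜ from h)
      rw [dist_comm] at this
      linarith
  · rintro A S ⟨U, hU, hy, x, hx, hx'⟩
    rcases le_total (infDist x Vᶜ) r with h3 | h3
    · exact Or.inl ⟨U, hU, hy, x, hx,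
        near_sub_att ho.isClosed_compl (nonempty_compl.2 hV) hx' h3⟩
    · obtain ⟨z, hz, h4⟩ := mem_iUnion₂.1 (hcov ⟨hx', h3⟩)
      exact Or.inr ⟨z, hfin.mem_toFinset.2 hz, U, hU, ⟨x, hx, h4⟩, hy⟩

/-- **The uniform bound**: in every subdomain `D` of `V` which differs from `V` only near `E`, a
hole which joins `O` to a set `S` near the boundary of `D` touches, with high probability, the
boundary part of `O`. -/
theorem unif (hV : Dom V) (hO : IsCompact O) (hr : 0 < r) (hrd : r ≤ d / 2)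
    (hOE : ∀ x ∈ O, ∀ y ∈ E, d ≤ dist x y) {ε : ENNReal} (hε : 0 < ε) : ∃ s : ℝ, 0 < s ∧
    ∀ D : Set ℂ, Dom D → D ⊆ V → V \ D ⊆ thickening (d / 2) E →
    ∀ S : Set ℂ, S ⊆ thickening s Dᶜ →
    ∀ (Θ : Type) (_ : MeasurableSpace Θ) (P : Measure Θ) (G : ℕ → Θ → NonemptyCompacts ℂ)
      (H : ℕ → Θ → (ℂ → ℝ) → ℝ), IsProbabilityMeasure P → IsSignedCarpets P D G H →
      P (G 1 ⁻¹' Jc D S O) ≤ P (G 1 ⁻¹' Jc D S (Att Vᶜ O r)) + ε := by
  obtain ⟨Z, hZ⟩ := jc_split_dom hV.1 (dom_ne_univ hV) hO hr hrd hOE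
  obtain ⟨ε', h1, h2⟩ := ENNReal.exists_nnreal_pos_mul_lt (a := Z.card) (b := ε)
    (ENNReal.natCast_ne_top _) hε.ne'
  obtain ⟨s, hs, h3⟩ := lemU (diam V) hr (ε := ε') (ENNReal.coe_pos.2 h1)
  refine ⟨s, hs, fun D hD hDV hDE S hS Θ mΘ P G H hP hG => ?_⟩
  obtain ⟨h4, h5⟩ := hZ D hDE
  calc P (G 1 ⁻¹' Jc D S O) ≤ P (G 1 ⁻¹' Jc D S (Att Vᶜ O r) ∪
        ⋃ z ∈ Z, G 1 ⁻¹' Jn D (closedBall z (r / 2)) (thickening s Dᶜ)) := by
        refine measure_mono fun x hx => ?_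
        rcases h5 _ S hx with h | ⟨z, hz, h⟩
        · exact Or.inl h
        · exact Or.inr (mem_iUnion₂.2 ⟨z, hz, jn_mono ball_subset_closedBall subset_rfl
            (jc_sub_jn isOpen_ball isOpen_thickening (jc_mono subset_rfl hS h))⟩)
    _ ≤ _ := by
        refine (measure_union_le _ _).trans (add_le_add le_rfl ?_)
        refine (measure_biUnion_finset_le _ _).trans ?_
        refine (Finset.sum_le_card_nsmul _ _ (ε' : ENNReal) fun z hz => h3 D hD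
          (fun x hx y hy => dist_le_diam_of_mem hV.2.1 (hDV hx) (hDV hy)) z (h4 z hz)
          Θ mΘ P G H hP hG).trans ?_
        rw [nsmul_eq_mul, mul_comm]
        exact h2.le

/-- in the fixed domain `V`, a hole which joins the boundary part of `O` to a distant set is
unlikely -/
theorem bdry_part (hV : Dom V) (hd : 0 < d) {Θ : Type} [MeasurableSpace Θ] {P : Measure Θ}
    [IsProbabilityMeasure P] {G : ℕ → Θ → NonemptyCompacts ℂ} {H : ℕ → Θ → (ℂ → ℝ) → ℝ}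
    (hG : IsSignedCarpets P V G H) {ε : ENNReal} (hε : 0 < ε) : ∃ r₀ : ℝ, 0 < r₀ ∧
    ∀ r, 0 < r → r ≤ r₀ → ∀ O T : Set ℂ, (∀ x ∈ O, ∀ y ∈ T, d < dist x y) →
      P (G 1 ⁻¹' Jc V (Att Vᶜ O r) T) ≤ ε := by
  obtain ⟨s, hs, h1⟩ := bdry_small hV hG (half_pos hd) hε
  refine ⟨min (s / 2) (d / 2), lt_min (half_pos hs) (half_pos hd), fun r hr hr' O T hOT => ?_⟩
  refine le_trans (measure_mono_ae ?_) h1
  filter_upwards [lf_ae hV hG] with x hx h
  exact big_mono le_rfl (thickening_mono (by linarith [min_le_left (s / 2) (d / 2)]) _)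
    (jc_bdry hV.2.1 hr (hr'.trans (min_le_right _ _)) hOT (hx 1 le_rfl).inside h)

end Vale.Agent.P155.Geo
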